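import Mathlib

/-!
# P228: actions that do not reverse secants have no small subgroups

If near every point, in some chart, the elements of the group close to the identity keep each
secant in an open half space, then the average of the chart over a small compact subgroup is
invariant and injective, so small subgroups act trivially on compact sets.
-/

namespace Vale.Agent.Results.P228.LocallyMonotone

open Set Filter MeasureTheory
open scoped Topology

noncomputable section

/-- Near every point there are a chart, a neighbourhood `V` and a neighbourhood `W` of the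
identity such that, for two distinct points of `V`, all their image secants under elements of `W`
lie, in the chart, in one open half space. -/
def NoSecantReversal (G M E : Type*) [Group G] [TopologicalSpace G] [TopologicalSpace M]
    [SMul G M] [NormedAddCommGroup E] [NormedSpace ℝ E] : Prop :=
  ∀ x : M, ∃ φ : OpenPartialHomeomorph M E, x ∈ φ.source ∧ ∃ V ∈ 𝓝 x, ∃ W ∈ 𝓝 (1 : G),
    ∀ y ∈ V, ∀ z ∈ V, y ≠ z → ∃ ℓ : E →L[ℝ] ℝ, ∀ g ∈ W,
      g • y ∈ φ.source → g • z ∈ φ.source → 0 < ℓ (φ (g • y) - φ (g • z))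

variable {G M E : Type*} [Group G] [TopologicalSpace G] [IsTopologicalGroup G]
  [TopologicalSpace M] [MulAction G M] [ContinuousSMul G M]
  [NormedAddCommGroup E] [NormedSpace ℝ E]

theorem local_trivial (h : NoSecantReversal G M E) (x : M) :
    ∃ W ∈ 𝓝 (1 : G), ∃ V ∈ 𝓝 x, ∀ H : Subgroup G, IsCompact (H : Set G) → (H : Set G) ⊆ W →
      ∀ g ∈ H, ∀ y ∈ V, g • y = y := by
  obtain ⟨φ, hx, V, hV, W, hW, hsec⟩ := h x
  have hU : φ.source ∩ V ∈ 𝓝 ((1 : G) • x) := by
    rw [one_smul]; exact inter_mem (φ.open_source.mem_nhds hx) hV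
  have hpre : (fun q : G × M => q.1 • q.2) ⁻¹' (φ.source ∩ V) ∈ 𝓝 ((1 : G), x) :=
    (continuous_smul.tendsto ((1 : G), x)) hU
  rw [nhds_prod_eq] at hpre
  obtain ⟨W₁, hW₁, V₁, hV₁, hsub⟩ := mem_prod_iff.1 hpre
  refine ⟨W ∩ W₁, inter_mem hW hW₁, V₁, hV₁, fun H hHc hH g₀ hg₀ y hy => ?_⟩
  have mem : ∀ g : G, g ∈ H → g • y ∈ φ.source ∩ V := fun g hg => hsub (mk_mem_prod (hH hg).2 hy)
  by_contra hne
  have hyV : y ∈ V := by simpa using (mem 1 H.one_mem).2
  obtain ⟨ℓ, hℓ⟩ := hsec y hyV (g₀ • y) (mem g₀ hg₀).2 (Ne.symm hne)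
  haveI : CompactSpace H := isCompact_iff_compactSpace.mp hHc
  letI : MeasurableSpace H := borel H
  haveI : BorelSpace H := ⟨rfl⟩
  set μ : Measure H := Measure.haar
  set A : H → ℝ := fun g => ℓ (φ ((g : G)⁻¹ • y)) with hA
  set B : H → ℝ := fun g => A (⟨g₀, hg₀⟩⁻¹ * g) with hB
  have hcA : Continuous A := ℓ.continuous.comp (φ.continuousOn.comp_continuous
    ((continuous_subtype_val.inv).smul continuous_const) fun g => (mem _ (H.inv_mem g.2)).1)
  have hcB : Continuous B := hcA.comp (continuous_const.mul continuous_id)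
  have hpos : ∀ g : H, 0 < A g - B g := fun g => by
    have e : ((⟨g₀, hg₀⟩⁻¹ * g : H) : G)⁻¹ • y = (g : G)⁻¹ • g₀ • y := by
      simp [mul_smul]
    have := hℓ _ (hH (H.inv_mem g.2)).1 (mem _ (H.inv_mem g.2)).1
      (by rw [← mul_smul]; exact (mem _ (H.mul_mem (H.inv_mem g.2) hg₀)).1)
    rw [map_sub] at this
    simpa only [hA, hB, e] using this
  obtain ⟨g₁, -, hg₁⟩ := isCompact_univ.exists_isMinOn (univ_nonempty (α := H))
    (hcA.sub hcB).continuousOn
  have hiA : Integrable A μ :=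
    hcA.integrable_of_hasCompactSupport (HasCompactSupport.of_compactSpace _)
  have hiB : Integrable B μ :=
    hcB.integrable_of_hasCompactSupport (HasCompactSupport.of_compactSpace _)
  have hle : ∫ _, (A g₁ - B g₁) ∂μ ≤ ∫ g, (A g - B g) ∂μ :=
    integral_mono (integrable_const _) (hiA.sub hiB) fun g => hg₁ (mem_univ g)
  rw [integral_sub hiA hiB, show ∫ g, B g ∂μ = ∫ g, A g ∂μ from integral_mul_left_eq_self A _,
    sub_self, integral_const, smul_eq_mul] at hle
  have hμ : 0 < μ.real univ :=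
    ENNReal.toReal_pos (isOpen_univ.measure_ne_zero μ univ_nonempty) (measure_ne_top μ univ)
  nlinarith [mul_pos hμ (hpos g₁)]

theorem trivial_on_compact [T2Space G] [LocallyCompactSpace G] (h : NoSecantReversal G M E)
    {K : Set M} (hK : IsCompact K) :
    ∃ W ∈ 𝓝 (1 : G), ∀ H : Subgroup G, (H : Set G) ⊆ W → ∀ g ∈ H, ∀ x ∈ K, g • x = x := by
  choose W hW V hV hfix using local_trivial h
  obtain ⟨t, -, ht⟩ := hK.elim_nhds_subcover V fun x _ => hV x
  have hI : (⋂ x ∈ t, W x) ∈ 𝓝 (1 : G) := (biInter_finset_mem t).2 fun x _ => hW x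
  obtain ⟨C, hC, hCW, hCc⟩ := local_compact_nhds hI
  refine ⟨C, hC, fun H hH g hg x hx => ?_⟩
  have hcl : (H.topologicalClosure : Set G) ⊆ C := closure_minimal hH hCc.isClosed
  obtain ⟨i, hi, hxi⟩ := mem_iUnion₂.1 (ht hx)
  exact hfix i H.topologicalClosure (hCc.of_isClosed_subset H.isClosed_topologicalClosure hcl)
    (hcl.trans (hCW.trans (biInter_subset_of_mem hi))) g (H.le_topologicalClosure hg) x hxi

theorem no_small_subgroups [T2Space G] [LocallyCompactSpace G] [CompactSpace M]
    [FaithfulSMul G M] (h : NoSecantReversal G M E) :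
    ∃ W ∈ 𝓝 (1 : G), ∀ H : Subgroup G, (H : Set G) ⊆ W → H = ⊥ := by
  obtain ⟨W, hW, hfix⟩ := trivial_on_compact h isCompact_univ
  refine ⟨W, hW, fun H hH => (Subgroup.eq_bot_iff_forall H).2 fun g hg => ?_⟩
  exact FaithfulSMul.eq_of_smul_eq_smul (α := M) fun x => by
    rw [one_smul]; exact hfix H hH g hg x (mem_univ x)

theorem no_padic (p : ℕ) [Fact p.Prime] {M E : Type*} [TopologicalSpace M] [CompactSpace M]
    [MulAction (Multiplicative ℤ_[p]) M] [ContinuousSMul (Multiplicative ℤ_[p]) M]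
    [FaithfulSMul (Multiplicative ℤ_[p]) M] [NormedAddCommGroup E] [NormedSpace ℝ E] :
    ¬ NoSecantReversal (Multiplicative ℤ_[p]) M E := fun h => by
  haveI : LocallyCompactSpace (Multiplicative ℤ_[p]) :=
    inferInstanceAs (LocallyCompactSpace ℤ_[p])
  obtain ⟨W, hW, hbot⟩ := no_small_subgroups h
  have hW' : Multiplicative.ofAdd ⁻¹' W ∈ 𝓝 (0 : ℤ_[p]) :=
    continuous_ofAdd.continuousAt.preimage_mem_nhds hW
  obtain ⟨r, hr, hball⟩ := Metric.mem_nhds_iff.1 hW'
  obtain ⟨n, hn⟩ := PadicInt.exists_pow_neg_lt p hr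
  set I : Ideal ℤ_[p] := Ideal.span {(p : ℤ_[p]) ^ n}
  have hsub : ((AddSubgroup.toSubgroup I.toAddSubgroup : Subgroup (Multiplicative ℤ_[p])) :
      Set (Multiplicative ℤ_[p])) ⊆ W := fun a ha => by
    have hmem : Multiplicative.toAdd a ∈ I := ha
    have := hball (show Multiplicative.toAdd a ∈ Metric.ball 0 r by
      rw [mem_ball_zero_iff]
      exact ((PadicInt.norm_le_pow_iff_mem_span_pow _ n).2 hmem).trans_lt hn)
    simpa using this
  have hpn : (p : ℤ_[p]) ^ n ∈ I := Ideal.mem_span_singleton_self _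
  have e := (Subgroup.eq_bot_iff_forall _).1 (hbot _ hsub)
    (Multiplicative.ofAdd ((p : ℤ_[p]) ^ n)) hpn
  have e0 : (p : ℤ_[p]) ^ n = 0 := congrArg Multiplicative.toAdd e
  exact pow_ne_zero n (Nat.cast_ne_zero.2 (Fact.out : p.Prime).ne_zero) e0

/-- Locally compact groups acting continuously without secant reversal: small subgroups fix
compact sets, faithful actions on compact spaces force no small subgroups, and `p`-adic integers
have no such faithful action on a compact manifold. -/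
theorem result :
    (∀ (G M E : Type) [Group G] [TopologicalSpace G] [IsTopologicalGroup G] [T2Space G]
      [LocallyCompactSpace G] [TopologicalSpace M] [MulAction G M] [ContinuousSMul G M]
      [NormedAddCommGroup E] [NormedSpace ℝ E], NoSecantReversal G M E →
        (∀ K : Set M, IsCompact K → ∃ W ∈ 𝓝 (1 : G),
          ∀ H : Subgroup G, (H : Set G) ⊆ W → ∀ g ∈ H, ∀ x ∈ K, g • x = x) ∧
        (CompactSpace M → FaithfulSMul G M →
          ∃ W ∈ 𝓝 (1 : G), ∀ H : Subgroup G, (H : Set G) ⊆ W → H = ⊥)) ∧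
    ∀ (p : ℕ) [Fact p.Prime] (M E : Type) [TopologicalSpace M] [CompactSpace M]
      [MulAction (Multiplicative ℤ_[p]) M] [ContinuousSMul (Multiplicative ℤ_[p]) M]
      [FaithfulSMul (Multiplicative ℤ_[p]) M] [NormedAddCommGroup E] [NormedSpace ℝ E],
      ¬ NoSecantReversal (Multiplicative ℤ_[p]) M E :=
  ⟨fun _ _ _ _ _ _ _ _ _ _ _ _ _ h =>
    ⟨fun _ hK => trivial_on_compact h hK, fun _ _ => no_small_subgroups h⟩,
    fun p _ _ _ _ _ _ _ _ _ _ => no_padic p⟩

end

end Vale.Agent.Results.P228.LocallyMonotone
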