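import Vale.Agent.P228.HS.Global

/-!
# P228: Hilbert–Smith for Sobolev and Hölder actions
-/

namespace Vale.Agent.Results.P228.SobolevHilbertSmith

open Vale.Agent.P228.HS

/-- In every dimension the `p`-adic integers act faithfully on no connected manifold by maps
bounded in `N^{s,q}` with `s * min q (n+1) > n - 1`, in particular by maps uniformly Hölder with
exponent above `(n-1)/(n+1)`. -/
theorem result :
    ∀ (p : ℕ) [Fact p.Prime] (n : ℕ) (M : Type) [TopologicalSpace M] [T2Space M] [ConnectedSpace M]
      [MulAction (Multiplicative ℤ_[p]) M] [ContinuousSMul (Multiplicative ℤ_[p]) M]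
      [FaithfulSMul (Multiplicative ℤ_[p]) M],
      ¬ NikolskiiRegular (Multiplicative ℤ_[p]) n M ∧
        ¬ LocallyHolder (Multiplicative ℤ_[p]) n M := by
  intro p _ n M _ _ _ _ _ _
  haveI : CompactSpace (Multiplicative ℤ_[p]) := inferInstanceAs (CompactSpace ℤ_[p])
  exact ⟨fun h => not_faithful_of_nikolskii p h,
    fun h => not_faithful_of_nikolskii p h.holderRegular.nikolskii⟩

end Vale.Agent.Results.P228.SobolevHilbertSmith
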